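import Vale.Agent.P054.Slice

/-!
# Zeros of a nondegenerate real bilinear form on a box of integer pairs

For `d ≥ 3` the number of pairs `(a,b)` in `[-T,T]^d` orthogonal for a nondegenerate
real bilinear form is `O(T^(2d-2))`, uniformly in the form.
-/

namespace Vale.Agent.P054

open Finset

/-- Sup norm of an integer vector, as a natural number. -/
def ht {d : ℕ} (a : Fin d → ℤ) : ℕ := Finset.univ.sup fun i => (a i).natAbs

theorem ht_le {d T : ℕ} {a : Fin d → ℤ} : ht a ≤ T ↔ ∀ i, |a i| ≤ (T : ℤ) := by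
  simp only [ht, Finset.sup_le_iff, mem_univ, true_implies]
  exact forall_congr' fun i => by rw [Int.abs_eq_natAbs]; exact_mod_cast Iff.rfl

theorem ht_pos {d : ℕ} {a : Fin d → ℤ} (ha : a ≠ 0) : 0 < ht a := by
  obtain ⟨i, hi⟩ := Function.ne_iff.1 ha
  exact lt_of_lt_of_le (Int.natAbs_pos.2 hi)
    (Finset.le_sup (f := fun i => (a i).natAbs) (mem_univ i))

theorem ht_scale {d : ℕ} (g : ℤ) (a a₀ : Fin d → ℤ) (h : ∀ i, a i = g * a₀ i) :
    ht a = g.natAbs * ht a₀ := by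
  refine le_antisymm (Finset.sup_le fun i _ => ?_) ?_
  · rw [h i, Int.natAbs_mul]
    exact Nat.mul_le_mul_left _ (Finset.le_sup (f := fun i => (a₀ i).natAbs) (mem_univ i))
  · rcases isEmpty_or_nonempty (Fin d) with hd | hd
    · simp [ht]
    obtain ⟨i, -, hi⟩ := exists_mem_eq_sup Finset.univ univ_nonempty fun i => (a₀ i).natAbs
    rw [show ht a₀ = (a₀ i).natAbs from hi, ← Int.natAbs_mul, ← h i]
    exact Finset.le_sup (f := fun i => (a i).natAbs) (mem_univ i)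

theorem shell_card (d K : ℕ) (hK : 1 ≤ K) (S : Finset (Fin d → ℤ))
    (hS : ∀ x ∈ S, ht x = K) : (S.card : ℝ) ≤ 2 * d * 3 ^ d * (K : ℝ) ^ (d - 1) := by
  classical
  have hsub : S ⊆ box d K \ box d (K - 1) := by
    intro x hx
    simp only [mem_sdiff, mem_box, ← ht_le, hS x hx]
    omega
  have hsubb : box d (K - 1) ⊆ box d K := fun x hx => mem_box.2 fun i => by
    have := mem_box.1 hx i; omega
  have h := card_le_card hsub
  rw [card_sdiff_of_subset hsubb, card_box, card_box] at h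
  have h' : (S.card : ℝ) ≤ (2 * (K : ℝ) + 1) ^ d - (2 * (K : ℝ) - 1) ^ d := by
    have hle : (2 * (K - 1) + 1) ^ d ≤ (2 * K + 1) ^ d := Nat.pow_le_pow_left (by omega) d
    have h2 : ((S.card : ℕ) : ℝ) ≤ (((2 * K + 1) ^ d - (2 * (K - 1) + 1) ^ d : ℕ) : ℝ) := by
      exact_mod_cast h
    rw [Nat.cast_sub hle] at h2
    push_cast [Nat.cast_sub hK] at h2
    refine h2.trans_eq ?_
    ring
  have key : ∀ n : ℕ, (2 * (K : ℝ) + 1) ^ (n + 1) - (2 * (K : ℝ) - 1) ^ (n + 1)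
      ≤ 2 * (n + 1) * (2 * (K : ℝ) + 1) ^ n := by
    have hK1 : (1 : ℝ) ≤ K := by exact_mod_cast hK
    intro n
    induction n with
    | zero => simp; linarith
    | succ n ih =>
      have hmono : (2 * (K : ℝ) - 1) ^ (n + 1) ≤ (2 * (K : ℝ) + 1) ^ (n + 1) :=
        pow_le_pow_left₀ (by linarith) (by linarith) _
      have e : (2 * (K : ℝ) + 1) ^ (n + 1 + 1) - (2 * (K : ℝ) - 1) ^ (n + 1 + 1)
          = (2 * (K : ℝ) + 1) * ((2 * (K : ℝ) + 1) ^ (n + 1) - (2 * (K : ℝ) - 1) ^ (n + 1))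
            + 2 * (2 * (K : ℝ) - 1) ^ (n + 1) := by ring
      rw [e]
      have h3 := mul_le_mul_of_nonneg_left ih (by linarith : (0 : ℝ) ≤ 2 * K + 1)
      push_cast
      rw [pow_succ (2 * (K : ℝ) + 1) n] at *
      linarith [h3, hmono]
  rcases d with _ | n
  · simp at h' ⊢; simpa using h'
  · refine h'.trans ((key n).trans ?_)
    have hK1 : (1 : ℝ) ≤ K := by exact_mod_cast hK
    have h3 : (2 * (K : ℝ) + 1) ^ n ≤ (3 * (K : ℝ)) ^ n :=
      pow_le_pow_left₀ (by linarith) (by linarith) n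
    have h4 : (3 : ℝ) ^ n ≤ 3 ^ (n + 1) := pow_le_pow_right₀ (by norm_num) (by omega)
    simp only [Nat.add_sub_cancel]
    push_cast
    calc 2 * ((n : ℝ) + 1) * (2 * K + 1) ^ n ≤ 2 * ((n : ℝ) + 1) * (3 ^ n * (K : ℝ) ^ n) := by
          rw [← mul_pow]; exact mul_le_mul_of_nonneg_left h3 (by positivity)
      _ ≤ 2 * ((n : ℝ) + 1) * (3 ^ (n + 1) * (K : ℝ) ^ n) := by gcongr
      _ = _ := by ring

/-- `∑ ht(x)^{-e}` over a box. -/
theorem sum_inv_ht (d e M : ℕ) (he : e + 1 ≤ d) (S : Finset (Fin d → ℤ))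
    (hS : ∀ x ∈ S, x ≠ 0 ∧ ht x ≤ M) :
    ∑ x ∈ S, ((ht x : ℝ) ^ e)⁻¹ ≤ 2 * d * 3 ^ d * (M : ℝ) ^ (d - e) := by
  classical
  have hmap : ∀ x ∈ S, ht x ∈ Icc 1 M := fun x hx =>
    mem_Icc.2 ⟨ht_pos (hS x hx).1, (hS x hx).2⟩
  rw [← sum_fiberwise_of_maps_to hmap fun x => ((ht x : ℝ) ^ e)⁻¹]
  have hterm : ∀ K ∈ Icc 1 M,
      (∑ x ∈ S.filter (fun x => ht x = K), ((ht x : ℝ) ^ e)⁻¹)
        ≤ 2 * d * 3 ^ d * (M : ℝ) ^ (d - e - 1) := by
    intro K hK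
    obtain ⟨hK1, hKM⟩ := mem_Icc.1 hK
    rw [sum_congr rfl fun x hx => by rw [(mem_filter.1 hx).2], sum_const, nsmul_eq_mul]
    have hc := shell_card d K hK1 (S.filter fun x => ht x = K) fun x hx => (mem_filter.1 hx).2
    have hKpos : (0 : ℝ) < (K : ℝ) ^ e := pow_pos (by exact_mod_cast hK1) e
    calc _ ≤ 2 * (d : ℝ) * 3 ^ d * (K : ℝ) ^ (d - 1) * ((K : ℝ) ^ e)⁻¹ :=
          mul_le_mul_of_nonneg_right hc (by positivity)
      _ = 2 * (d : ℝ) * 3 ^ d * (K : ℝ) ^ (d - e - 1) := by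
          rw [show d - 1 = (d - e - 1) + e by omega, pow_add]
          field_simp
      _ ≤ _ := by gcongr
  refine (sum_le_sum hterm).trans (le_of_eq ?_)
  rw [sum_const, Nat.card_Icc, nsmul_eq_mul, show M + 1 - 1 = M by omega,
    show d - e = (d - e - 1) + 1 by omega, pow_succ,
    show d - e - 1 + 1 - 1 = d - e - 1 by omega]
  ring

theorem parallel_card {d : ℕ} (T : ℕ) (a : Fin d → ℤ) (ha : a ≠ 0)
    (B : Finset (Fin d → ℤ)) (hB : B ⊆ box d T)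
    (hpar : ∀ b ∈ B, ∃ μ : ℝ, ∀ i, (b i : ℝ) = μ * a i) :
    (B.card : ℝ) ≤ 2 * T * ((Finset.univ.gcd a).natAbs / (ht a : ℝ)) + 1 := by
  classical
  obtain ⟨i₀, hi₀⟩ := Function.ne_iff.1 ha
  obtain ⟨a₀, ha₀, hg1⟩ := Finset.extract_gcd a ⟨i₀, mem_univ _⟩
  set g := Finset.univ.gcd a with hg
  obtain ⟨c, hc⟩ := (Finset.univ : Finset (Fin d)).gcd_eq_sum_mul a₀
  rw [hg1] at hc
  have hg0 : g ≠ 0 := fun h => hi₀ (by rw [ha₀ i₀ (mem_univ _), h]; simp)
  have ha0 : a₀ ≠ 0 := fun h => hi₀ (by rw [ha₀ i₀ (mem_univ _), h]; simp)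
  have hht : ht a = g.natAbs * ht a₀ := ht_scale g a a₀ fun i => ha₀ i (mem_univ _)
  have hA := ht_pos ha0
  set J := T / ht a₀ with hJ
  have hrep : ∀ b ∈ B, ∀ i, b i = (∑ l, c l * b l) * a₀ i := by
    intro b hb i
    obtain ⟨μ, hμ⟩ := hpar b hb
    have hc' : (∑ l, (c l : ℝ) * a₀ l) = 1 := by
      have : ((∑ l, a₀ l * c l : ℤ) : ℝ) = 1 ∨ ((∑ l, c l * a₀ l : ℤ) : ℝ) = 1 := by
        exact Or.inl (by rw [← hc]; simp)
      rcases this with h | h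
      · push_cast at h; rw [← h]; exact sum_congr rfl fun l _ => mul_comm _ _
      · push_cast at h; exact h
    have hbl : ∀ l, (b l : ℝ) = μ * g * a₀ l := fun l => by
      rw [hμ l, ha₀ l (mem_univ _)]; push_cast; ring
    have : (b i : ℝ) = ((((∑ l, c l * b l) * a₀ i) : ℤ) : ℝ) := by
      push_cast
      simp only [hbl]
      rw [show (∑ x, (c x : ℝ) * (μ * g * a₀ x)) = μ * g * ∑ x, (c x : ℝ) * a₀ x by
        rw [mul_sum]; exact sum_congr rfl fun x _ => by ring, hc', mul_one]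
    exact_mod_cast this
  have hinj : Set.InjOn (fun b : Fin d → ℤ => ∑ l, c l * b l) ↑B := by
    intro x hx y hy h
    funext i
    rw [hrep x hx i, hrep y hy i]
    simp only at h
    rw [h]
  have hmaps : Set.MapsTo (fun b : Fin d → ℤ => ∑ l, c l * b l) ↑B
      ↑(Finset.Icc (-(J : ℤ)) J) := by
    intro b hb
    simp only [coe_Icc, Set.mem_Icc]
    rw [← abs_le]
    obtain ⟨i, -, hi⟩ := exists_mem_eq_sup Finset.univ ⟨i₀, mem_univ _⟩ fun i => (a₀ i).natAbs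
    have h1 := mem_box.1 (hB hb) i
    rw [hrep b hb i, abs_mul, Int.abs_eq_natAbs (a₀ i)] at h1
    rw [show (a₀ i).natAbs = ht a₀ from hi.symm, Int.abs_eq_natAbs] at h1
    rw [Int.abs_eq_natAbs, hJ]
    have : (∑ l, c l * b l).natAbs * ht a₀ ≤ T := by exact_mod_cast h1
    exact_mod_cast (Nat.le_div_iff_mul_le hA).2 this
  have hle := card_le_card_of_injOn _ hmaps hinj
  rw [Int.card_Icc, show ((J : ℤ) + 1 - -(J : ℤ)).toNat = 2 * J + 1 by omega] at hle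
  have hJ' : (J : ℝ) ≤ (T : ℝ) / ht a₀ := Nat.cast_div_le
  have e : ((g.natAbs : ℝ) / (ht a : ℝ)) = 1 / (ht a₀ : ℝ) := by
    rw [hht]
    have : (g.natAbs : ℝ) ≠ 0 := by exact_mod_cast Int.natAbs_ne_zero.2 hg0
    push_cast
    field_simp
  rw [e, mul_one_div]
  calc (B.card : ℝ) ≤ ((2 * J + 1 : ℕ) : ℝ) := by exact_mod_cast hle
    _ ≤ 2 * (T : ℝ) / ht a₀ + 1 := by push_cast; rw [mul_div_assoc]; linarith

theorem sum_gcd_div_ht (d T : ℕ) (hd : 3 ≤ d) :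
    ∑ a ∈ (box d T).erase 0, ((Finset.univ.gcd a).natAbs : ℝ) / (ht a : ℝ)
      ≤ 4 * d * 3 ^ d * (T : ℝ) ^ (d - 1) := by
  classical
  let G : (Fin d → ℤ) → ℕ := fun a => (Finset.univ.gcd a).natAbs
  have hG : ∀ a ∈ (box d T).erase 0, G a ∈ Icc 1 T := by
    intro a ha
    obtain ⟨hne, hb⟩ := mem_erase.1 ha
    obtain ⟨i, hi⟩ := Function.ne_iff.1 hne
    have hdvd : (Finset.univ.gcd a) ∣ a i := Finset.gcd_dvd (mem_univ i)
    refine mem_Icc.2 ⟨Int.natAbs_pos.2 fun h => hi ?_, ?_⟩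
    · rw [h, zero_dvd_iff] at hdvd; exact hdvd
    · have h1 := Nat.le_of_dvd (Int.natAbs_pos.2 hi) (Int.natAbs_dvd_natAbs.2 hdvd)
      have h2 : (a i).natAbs ≤ T := by
        have := mem_box.1 hb i
        rw [Int.abs_eq_natAbs] at this
        exact_mod_cast this
      exact h1.trans h2
  rw [← sum_fiberwise_of_maps_to hG]
  have hterm : ∀ g ∈ Icc 1 T,
      (∑ a ∈ ((box d T).erase 0).filter (fun a => G a = g),
        ((Finset.univ.gcd a).natAbs : ℝ) / (ht a : ℝ))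
      ≤ 2 * d * 3 ^ d * (T : ℝ) ^ (d - 1) * (((g : ℝ) ^ 2)⁻¹) := by
    intro g hg
    obtain ⟨hg1, -⟩ := mem_Icc.1 hg
    let dv : (Fin d → ℤ) → (Fin d → ℤ) := fun a i => a i / (g : ℤ)
    set S := ((box d T).erase 0).filter (fun a => G a = g) with hS
    have hmul : ∀ a ∈ S, ∀ i, a i = (g : ℤ) * dv a i := by
      intro a ha i
      have : (g : ℤ) ∣ a i := by
        rw [← (mem_filter.1 ha).2, Int.natAbs_dvd]
        exact Finset.gcd_dvd (mem_univ i)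
      exact (Int.mul_ediv_cancel' this).symm
    have hinj : Set.InjOn dv ↑S := fun a ha b hb h => by
      funext i; rw [hmul a ha i, hmul b hb i, h]
    have hht : ∀ a ∈ S, ht a = g * ht (dv a) := fun a ha => by
      rw [ht_scale (g : ℤ) a (dv a) (hmul a ha), Int.natAbs_natCast]
    have e : (∑ a ∈ S, ((Finset.univ.gcd a).natAbs : ℝ) / (ht a : ℝ))
        = ∑ x ∈ S.image dv, ((ht x : ℝ) ^ 1)⁻¹ := by
      rw [sum_image hinj]
      refine sum_congr rfl fun a ha => ?_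
      rw [show (Finset.univ.gcd a).natAbs = g from (mem_filter.1 ha).2, hht a ha]
      push_cast
      have : (g : ℝ) ≠ 0 := by positivity
      field_simp
    rw [e]
    refine (sum_inv_ht d 1 (T / g) (by omega) _ ?_).trans ?_
    · intro x hx
      obtain ⟨a, ha, rfl⟩ := mem_image.1 hx
      obtain ⟨hne, hb⟩ := mem_erase.1 (mem_filter.1 ha).1
      refine ⟨fun h => hne (by funext i; rw [hmul a ha i, h]; simp), ?_⟩
      rw [Nat.le_div_iff_mul_le (by omega), mul_comm, ← hht a ha]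
      exact ht_le.2 (mem_box.1 hb)
    · have hq : ((T / g : ℕ) : ℝ) ≤ (T : ℝ) / g := Nat.cast_div_le
      calc 2 * (d : ℝ) * 3 ^ d * ((T / g : ℕ) : ℝ) ^ (d - 1)
          ≤ 2 * (d : ℝ) * 3 ^ d * ((T : ℝ) / g) ^ (d - 1) := by gcongr
        _ = 2 * (d : ℝ) * 3 ^ d * (T : ℝ) ^ (d - 1) * ((g : ℝ) ^ (d - 1))⁻¹ := by
          rw [div_pow]; ring
        _ ≤ _ := by
          have : (g : ℝ) ^ 2 ≤ (g : ℝ) ^ (d - 1) :=
            pow_le_pow_right₀ (by exact_mod_cast hg1) (by omega)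
          gcongr
  refine (sum_le_sum hterm).trans ?_
  rw [← mul_sum]
  have hs : ∑ g ∈ Icc 1 T, (((g : ℝ) ^ 2)⁻¹) ≤ 2 := by
    have e : Icc 1 T = Ioo 0 (T + 1) := by ext x; simp; omega
    rw [e]
    exact le_trans (sum_Ioo_inv_sq_le 0 (T + 1)) (by norm_num)
  calc 2 * (d : ℝ) * 3 ^ d * (T : ℝ) ^ (d - 1) * ∑ g ∈ Icc 1 T, (((g : ℝ) ^ 2)⁻¹)
      ≤ 2 * (d : ℝ) * 3 ^ d * (T : ℝ) ^ (d - 1) * 2 := by gcongr
    _ = _ := by ring

/-- A full hyperplane of solutions has an integer primitive normal, proportional to `r`. -/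
theorem normal_or_low {d : ℕ} (r : Fin d → ℝ) (hr : r ≠ 0) (B : Finset (Fin d → ℤ))
    (hB : ∀ b ∈ B, ∑ i, r i * b i = 0) :
    (∃ W : Submodule ℚ (Fin d → ℚ), Module.finrank ℚ W ≤ d - 2 ∧
        ∀ b ∈ B, (fun i => (b i : ℚ)) ∈ W) ∨
    ∃ k c : Fin d → ℤ, ∑ i, c i * k i = 1 ∧ (∀ b ∈ B, ∑ i, k i * b i = 0) ∧
      ∃ μ : ℝ, ∀ i, r i = μ * k i := by
  classical
  set W : Submodule ℚ (Fin d → ℚ) :=
    Submodule.span ℚ ((B.image fun b => fun i => (b i : ℚ) : Finset (Fin d → ℚ)) : Set (Fin d → ℚ))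
    with hW
  have hmem : ∀ b ∈ B, (fun i => (b i : ℚ)) ∈ W := fun b hb =>
    Submodule.subset_span (mem_image_of_mem _ hb)
  have horth : ∀ x ∈ W, ∑ i, r i * (x i : ℝ) = 0 := by
    intro x hx
    induction hx using Submodule.span_induction with
    | mem x hx =>
      obtain ⟨b, hb, rfl⟩ := mem_image.1 hx
      simpa using hB b hb
    | zero => simp
    | add x y _ _ h1 h2 => simp [mul_add, sum_add_distrib, h1, h2]
    | smul a x _ h1 =>
      simp only [Pi.smul_apply, smul_eq_mul, Rat.cast_mul]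
      rw [show (∑ i, r i * ((a : ℝ) * (x i : ℝ))) = (a : ℝ) * ∑ i, r i * (x i : ℝ) by
        rw [mul_sum]; exact sum_congr rfl fun i _ => by ring, h1, mul_zero]
  by_cases hlow : Module.finrank ℚ W ≤ d - 2
  · exact Or.inl ⟨W, hlow, hmem⟩
  right
  have hne : W ≠ ⊤ := by
    intro h
    obtain ⟨i, hi⟩ := Function.ne_iff.1 hr
    have := horth (Pi.single i 1) (h ▸ Submodule.mem_top)
    apply hi
    rw [sum_eq_single i (fun j _ hj => by simp [hj]) (by simp)] at this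
    simpa using this
  obtain ⟨f, hf, hfW⟩ := Submodule.exists_le_ker_of_lt_top W (lt_top_iff_ne_top.2 hne)
  have hker : W = LinearMap.ker f := by
    refine Submodule.eq_of_le_of_finrank_le hfW ?_
    have h1 := Submodule.finrank_lt (s := LinearMap.ker f)
      (fun h => hf (LinearMap.ker_eq_top.1 h))
    rw [Module.finrank_fin_fun] at h1
    omega
  let q : Fin d → ℚ := fun i => f (Pi.single i 1)
  have hfx : ∀ x, f x = ∑ i, q i * x i := by
    intro x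
    conv_lhs => rw [pi_eq_sum_univ' x]
    simp [q, mul_comm]
  obtain ⟨m, hm⟩ := IsLocalization.exist_integer_multiples_of_finset
    (nonZeroDivisors ℤ) (Finset.univ.image q)
  have hz : ∀ i, ∃ z : ℤ, (z : ℚ) = ((m : ℤ) : ℚ) * q i := by
    intro i
    obtain ⟨z, hz⟩ := hm (q i) (mem_image_of_mem _ (mem_univ i))
    exact ⟨z, by simpa [zsmul_eq_mul] using hz⟩
  choose z hz using hz
  have hm0 : ((m : ℤ) : ℚ) ≠ 0 := by exact_mod_cast nonZeroDivisors.ne_zero m.2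
  have hz0 : ∃ i, z i ≠ 0 := by
    by_contra h
    push_neg at h
    apply hf
    refine LinearMap.ext fun x => ?_
    rw [hfx, LinearMap.zero_apply]
    refine sum_eq_zero fun i _ => ?_
    have : q i = 0 := by
      have := hz i; rw [h i] at this; simpa [hm0] using this.symm
    simp [this]
  obtain ⟨i₀, hi₀⟩ := hz0
  obtain ⟨k, hk, hg1⟩ := Finset.extract_gcd z ⟨i₀, mem_univ _⟩
  obtain ⟨c, hc⟩ := (Finset.univ : Finset (Fin d)).gcd_eq_sum_mul k
  rw [hg1] at hc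
  have hg0 : Finset.univ.gcd z ≠ 0 := fun h => hi₀ (by rw [hk i₀ (mem_univ _), h]; simp)
  have hki : k i₀ ≠ 0 := fun h => hi₀ (by rw [hk i₀ (mem_univ _), h]; simp)
  have hkq : ∀ x : Fin d → ℚ, x ∈ W ↔ ∑ i, (k i : ℚ) * x i = 0 := by
    intro x
    rw [hker, LinearMap.mem_ker, hfx]
    have e : ((m : ℤ) : ℚ) * (∑ i, q i * x i)
        = ((Finset.univ.gcd z : ℤ) : ℚ) * ∑ i, (k i : ℚ) * x i := by
      rw [mul_sum, mul_sum]
      refine sum_congr rfl fun i _ => ?_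
      rw [← mul_assoc, ← hz i, hk i (mem_univ _)]
      push_cast; ring
    have hg0' : ((Finset.univ.gcd z : ℤ) : ℚ) ≠ 0 := by exact_mod_cast hg0
    constructor <;> intro h
    · rw [h, mul_zero] at e; exact (mul_eq_zero.1 e.symm).resolve_left hg0'
    · rw [h, mul_zero] at e; exact (mul_eq_zero.1 e).resolve_left hm0
  refine ⟨k, c, ?_, ?_, r i₀ / (k i₀ : ℝ), fun j => ?_⟩
  · rw [hc]; exact sum_congr rfl fun i _ => by first | rfl | exact mul_comm _ _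
  · intro b hb
    have := (hkq _).1 (hmem b hb)
    exact_mod_cast this
  · have hv : (Pi.single j (k i₀ : ℚ) - Pi.single i₀ (k j : ℚ) : Fin d → ℚ) ∈ W := by
      rw [hkq]
      simp [Pi.single_apply, mul_sub, sum_sub_distrib, mul_comm]
    have := horth _ hv
    simp only [Pi.sub_apply, Pi.single_apply, Rat.cast_sub, apply_ite (fun x : ℚ => (x : ℝ)),
      mul_sub, sum_sub_distrib, Rat.cast_zero, mul_ite, mul_zero, sum_ite_eq', mem_univ,
      if_true, Rat.cast_intCast] at this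
    have h0 : (k i₀ : ℝ) ≠ 0 := by exact_mod_cast hki
    field_simp
    linarith

/-- The constant in the count of orthogonal pairs. -/
def countConst (d : ℕ) : ℝ :=
  3 ^ d + (5 ^ d + (3 * 2 ^ d) ^ d) * (3 ^ d + (8 * d * 3 ^ d + 3 ^ d) + 2 * d * 3 ^ d)

/-- `k` is a primitive integer normal of the solution set `B`, proportional to `r`. -/
def IsNormal {d : ℕ} (r : Fin d → ℝ) (B : Finset (Fin d → ℤ)) (k : Fin d → ℤ) : Prop :=
  ∃ c : Fin d → ℤ, ∑ i, c i * k i = 1 ∧ (∀ b ∈ B, ∑ i, k i * b i = 0) ∧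
    ∃ μ : ℝ, ∀ i, r i = μ * k i

theorem IsNormal.ne_zero {d : ℕ} {r : Fin d → ℝ} {B : Finset (Fin d → ℤ)} {k : Fin d → ℤ}
    (h : IsNormal r B k) : k ≠ 0 := by
  obtain ⟨c, hc, -⟩ := h
  rintro rfl
  simp at hc

theorem normal_slice {d T : ℕ} (hd : 2 ≤ d) (hT : 1 ≤ T) {r : Fin d → ℝ}
    {B : Finset (Fin d → ℤ)} {k : Fin d → ℤ} (hB : B ⊆ box d T) (h : IsNormal r B k) :
    (B.card : ℝ) ≤ 5 ^ d * (T : ℝ) ^ (d - 2)
      + (if ht k ≤ T then 5 ^ d * (T : ℝ) ^ (d - 1) * ((ht k : ℝ))⁻¹ else 0) := by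
  classical
  have hkne := h.ne_zero
  obtain ⟨c, hc, hk0, -⟩ := h
  have hT0 : (0 : ℝ) < T := by exact_mod_cast hT
  haveI : Nonempty (Fin d) := ⟨⟨0, by omega⟩⟩
  obtain ⟨i₀, -, hi₀⟩ := exists_mem_eq_sup Finset.univ univ_nonempty fun i => (k i).natAbs
  have hKpos := ht_pos hkne
  haveI : NeZero (ht k) := ⟨hKpos.ne'⟩
  have hi₀' : |k i₀| = (ht k : ℤ) := by
    rw [Int.abs_eq_natAbs, show ht k = (k i₀).natAbs from hi₀]
  have hs := slice_card_mul (K := ht k) k c hc i₀ hi₀' T B hB hk0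
  set K := ht k with hKdef
  have h5 : ((4 * T + 1) ^ d : ℕ) ≤ (5 * T) ^ d := Nat.pow_le_pow_left (by omega) d
  have h6 := le_trans (le_trans (Nat.mul_le_mul_left B.card
    (Nat.mul_le_mul_left (min K (T + 1)) (by omega : T ≤ 2 * T + 1))) hs) h5
  have ed : (5 * T) ^ d = 5 ^ d * T ^ (d - 1) * T := by
    rw [mul_pow, mul_assoc (5 ^ d), ← pow_succ, show d - 1 + 1 = d by omega]
  rw [ed, ← mul_assoc] at h6
  have h7 : B.card * min K (T + 1) ≤ 5 ^ d * T ^ (d - 1) := Nat.le_of_mul_le_mul_right h6 hT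
  by_cases hKT : K ≤ T
  · rw [if_pos hKT]
    rw [min_eq_left (by omega)] at h7
    have hKr : (0 : ℝ) < K := by exact_mod_cast hKpos
    have : (B.card : ℝ) ≤ 5 ^ d * (T : ℝ) ^ (d - 1) * (K : ℝ)⁻¹ := by
      rw [← div_eq_mul_inv, le_div_iff₀ hKr]
      exact_mod_cast h7
    exact this.trans (le_add_of_nonneg_left (by positivity))
  · rw [if_neg hKT, add_zero]
    rw [min_eq_right (by omega)] at h7
    have ed1 : T ^ (d - 1) = T ^ (d - 2) * T := by rw [← pow_succ]; congr 1; omega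
    have h8 : B.card * T ≤ 5 ^ d * T ^ (d - 2) * T := by
      rw [mul_assoc, ← ed1]
      exact le_trans (Nat.mul_le_mul_left _ (Nat.le_succ T)) h7
    exact_mod_cast Nat.le_of_mul_le_mul_right h8 hT

theorem low_card {d T : ℕ} (hT : 1 ≤ T) (W : Submodule ℚ (Fin d → ℚ))
    (B : Finset (Fin d → ℤ)) (hW : Module.finrank ℚ W ≤ d - 2) (hB : B ⊆ box d T)
    (hBW : ∀ b ∈ B, (fun i => (b i : ℚ)) ∈ W) :
    (B.card : ℝ) ≤ (3 * 2 ^ d) ^ d * (T : ℝ) ^ (d - 2) := by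
  have h := subspace_card (d - 2) W T B hW hB hBW
  have h2 : (2 : ℕ) ^ (d - 2) ≤ 2 ^ d := Nat.pow_le_pow_right (by norm_num) (by omega)
  have h' : (2 ^ (d - 2) * (2 * T + 1)) ^ (d - 2) ≤ (3 * 2 ^ d) ^ d * T ^ (d - 2) :=
    calc (2 ^ (d - 2) * (2 * T + 1)) ^ (d - 2) ≤ (2 ^ d * (3 * T)) ^ (d - 2) :=
          Nat.pow_le_pow_left (Nat.mul_le_mul h2 (by omega)) _
      _ = (3 * 2 ^ d) ^ (d - 2) * T ^ (d - 2) := by
          rw [← mul_pow]; congr 1; ring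
      _ ≤ _ := Nat.mul_le_mul_right _ (Nat.pow_le_pow_right (by positivity) (by omega))
  exact_mod_cast h.trans h'

theorem sum_inv_normal {d T : ℕ} (hd : 3 ≤ d) (hT : 1 ≤ T) (F : Finset (Fin d → ℤ))
    (nk : (Fin d → ℤ) → (Fin d → ℤ)) (hF : ∀ a ∈ F, a ≠ 0 ∧ a ∈ box d T)
    (hnk : ∀ a ∈ F, nk a ≠ 0 ∧ ht (nk a) ≤ T)
    (hpar : ∀ a ∈ F, ∀ a' ∈ F, nk a' = nk a → ∃ μ : ℝ, ∀ i, (a' i : ℝ) = μ * a i) :
    ∑ a ∈ F, ((ht (nk a) : ℝ))⁻¹
      ≤ (8 * d * 3 ^ d + 3 ^ d + 2 * d * 3 ^ d) * (T : ℝ) ^ (d - 1) := by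
  classical
  have hT' : (1 : ℝ) ≤ T := by exact_mod_cast hT
  have hT0 : (0 : ℝ) < T := by linarith
  set I := F.image nk with hI
  rw [← sum_fiberwise_of_maps_to (t := I) (fun a ha => mem_image_of_mem _ ha)]
  have hI1 : ∀ k ∈ I, k ≠ 0 ∧ ht k ≤ T := by
    intro k hk
    obtain ⟨a, ha, rfl⟩ := mem_image.1 hk
    exact hnk a ha
  have hterm : ∀ k ∈ I, (∑ a ∈ F.filter (fun a => nk a = k), ((ht (nk a) : ℝ))⁻¹)
      ≤ (∑ a ∈ F.filter (fun a => nk a = k),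
          ((F.filter fun a' => nk a' = nk a).card : ℝ) / T)
        + (T : ℝ) * (((ht k : ℝ)) ^ 2)⁻¹ := by
    intro k hk
    rw [sum_congr rfl (fun a ha => by rw [(mem_filter.1 ha).2] :
        ∀ a ∈ F.filter (fun a => nk a = k), ((ht (nk a) : ℝ))⁻¹ = ((ht k : ℝ))⁻¹),
      sum_congr rfl (fun a ha => by rw [(mem_filter.1 ha).2] :
        ∀ a ∈ F.filter (fun a => nk a = k),
          ((F.filter fun a' => nk a' = nk a).card : ℝ) / T
            = ((F.filter fun a' => nk a' = k).card : ℝ) / T)]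
    simp only [sum_const, nsmul_eq_mul]
    set f : ℝ := ((F.filter fun a' => nk a' = k).card : ℝ) with hf
    set u : ℝ := ((ht k : ℝ))⁻¹ with hu
    rw [← inv_pow, ← hu]
    have h1 : f * u * 2 ≤ f * (f / T) + T * u ^ 2 := by
      rw [← sub_nonneg]
      have : f * (f / T) + T * u ^ 2 - f * u * 2 = (f - T * u) ^ 2 / T := by field_simp; ring
      rw [this]; positivity
    have h2 : (0 : ℝ) ≤ f * (f / T) + T * u ^ 2 := by positivity
    linarith
  refine (sum_le_sum hterm).trans ?_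
  rw [sum_add_distrib, sum_fiberwise_of_maps_to (fun a ha => mem_image_of_mem _ ha),
    ← sum_div, ← mul_sum]
  have hp : ∀ a ∈ F, ((F.filter fun a' => nk a' = nk a).card : ℝ)
      ≤ 2 * T * ((Finset.univ.gcd a).natAbs / (ht a : ℝ)) + 1 := fun a ha =>
    parallel_card T a (hF a ha).1 _ (fun x hx => (hF x (mem_filter.1 hx).1).2)
      fun a' ha' => hpar a ha a' (mem_filter.1 ha').1 (mem_filter.1 ha').2
  have hS1 : (∑ a ∈ F, ((F.filter fun a' => nk a' = nk a).card : ℝ))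
      ≤ (8 * d * 3 ^ d + 3 ^ d) * (T : ℝ) ^ d := by
    refine (sum_le_sum hp).trans ?_
    rw [sum_add_distrib, ← mul_sum, sum_const, nsmul_eq_mul, mul_one]
    have h1 : ∑ a ∈ F, ((Finset.univ.gcd a).natAbs : ℝ) / (ht a : ℝ)
        ≤ 4 * d * 3 ^ d * (T : ℝ) ^ (d - 1) :=
      (sum_le_sum_of_subset_of_nonneg (fun x hx => mem_erase.2 (hF x hx))
        fun _ _ _ => by positivity).trans (sum_gcd_div_ht d T hd)
    have h2 : (F.card : ℝ) ≤ 3 ^ d * (T : ℝ) ^ d := by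
      have h := card_le_card (t := box d T) (fun x hx => (hF x hx).2 : F ⊆ box d T)
      rw [card_box] at h
      rw [← mul_pow]
      have h' : F.card ≤ (3 * T) ^ d := h.trans (Nat.pow_le_pow_left (by omega) d)
      exact_mod_cast h'
    have ed : (T : ℝ) ^ d = (T : ℝ) ^ (d - 1) * T := by rw [← pow_succ]; congr 1; omega
    have h3 := mul_le_mul_of_nonneg_left h1 (by positivity : (0 : ℝ) ≤ 2 * T)
    rw [ed] at h2 ⊢
    linarith
  have hS2 := sum_inv_ht d 2 T (by omega) I hI1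
  have ed1 : (T : ℝ) ^ (d - 1) = (T : ℝ) * (T : ℝ) ^ (d - 2) := by
    rw [← pow_succ']; congr 1; omega
  have h3 : (∑ a ∈ F, ((F.filter fun a' => nk a' = nk a).card : ℝ)) / T
      ≤ (8 * d * 3 ^ d + 3 ^ d) * (T : ℝ) ^ (d - 1) := by
    rw [div_le_iff₀ hT0, mul_assoc, ← pow_succ, show d - 1 + 1 = d by omega]
    exact hS1
  have h4 := mul_le_mul_of_nonneg_left hS2 hT0.le
  rw [ed1] at h3 ⊢
  linarith

theorem orth_count {d T : ℕ} (hd : 3 ≤ d) (hT : 1 ≤ T)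
    (r : (Fin d → ℤ) → Fin d → ℝ) (hr0 : ∀ a, r a = 0 → a = 0)
    (hrpar : ∀ (a a' : Fin d → ℤ) (μ : ℝ), (∀ i, r a' i = μ * r a i) →
      ∀ i, (a' i : ℝ) = μ * a i) :
    (((box d T ×ˢ box d T).filter fun p => ∑ i, r p.1 i * p.2 i = 0).card : ℝ)
      ≤ countConst d * (T : ℝ) ^ (2 * d - 2) := by
  classical
  have hT' : (1 : ℝ) ≤ T := by exact_mod_cast hT
  let Bs : (Fin d → ℤ) → Finset (Fin d → ℤ) := fun a =>
    (box d T).filter fun b => ∑ i, r a i * b i = 0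
  have hsplit : (((box d T ×ˢ box d T).filter fun p => ∑ i, r p.1 i * p.2 i = 0).card : ℝ)
      = ∑ a ∈ box d T, ((Bs a).card : ℝ) := by
    simp only [Bs, card_filter, Nat.cast_sum]
    rw [sum_product]
  rw [hsplit]
  have h0mem : (0 : Fin d → ℤ) ∈ box d T := mem_box.2 (by simp)
  rw [← add_sum_erase _ _ h0mem]
  set A := (box d T).erase 0 with hA
  have hbox : ((box d T).card : ℝ) ≤ 3 ^ d * (T : ℝ) ^ d := by
    rw [card_box, ← mul_pow]; push_cast; gcongr; linarith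
  let nk : (Fin d → ℤ) → (Fin d → ℤ) := fun a =>
    if h : ∃ k, IsNormal (r a) (Bs a) k then h.choose else 0
  set F := A.filter (fun a => IsNormal (r a) (Bs a) (nk a) ∧ ht (nk a) ≤ T) with hF
  set C1 : ℝ := 5 ^ d + (3 * 2 ^ d) ^ d with hC1
  have hpt : ∀ a ∈ A, ((Bs a).card : ℝ) ≤ C1 * (T : ℝ) ^ (d - 2)
      + if a ∈ F then C1 * (T : ℝ) ^ (d - 1) * ((ht (nk a) : ℝ))⁻¹ else 0 := by
    intro a ha
    have hC : 0 ≤ (if a ∈ F then C1 * (T : ℝ) ^ (d - 1) * ((ht (nk a) : ℝ))⁻¹ else 0) := by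
      split <;> positivity
    have h5 : (5 : ℝ) ^ d ≤ C1 := le_add_of_nonneg_right (by positivity)
    have h32 : (3 * 2 ^ d : ℝ) ^ d ≤ C1 := le_add_of_nonneg_left (by positivity)
    by_cases hk : ∃ k, IsNormal (r a) (Bs a) k
    · have hn : IsNormal (r a) (Bs a) (nk a) := by
        rw [show nk a = hk.choose from dif_pos hk]; exact hk.choose_spec
      refine (normal_slice (by omega) hT (filter_subset _ _) hn).trans ?_
      have hiff : a ∈ F ↔ ht (nk a) ≤ T :=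
        ⟨fun h => (mem_filter.1 h).2.2, fun h => mem_filter.2 ⟨ha, hn, h⟩⟩
      simp only [hiff]
      split_ifs <;> gcongr
    · rcases normal_or_low (r a) (fun h => (mem_erase.1 ha).1 (hr0 a h)) (Bs a)
        (fun b hb => (mem_filter.1 hb).2) with ⟨W, hW, hWmem⟩ | ⟨k, h⟩
      · exact le_add_of_le_of_nonneg ((low_card hT W _ hW (filter_subset _ _) hWmem).trans
          (mul_le_mul_of_nonneg_right h32 (by positivity))) hC
      · exact absurd ⟨k, h⟩ hk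
  have hB0 : ((Bs 0).card : ℝ) ≤ 3 ^ d * (T : ℝ) ^ (2 * d - 2) :=
    ((Nat.cast_le.2 (card_le_card (filter_subset _ _))).trans hbox).trans
      (mul_le_mul_of_nonneg_left (pow_le_pow_right₀ hT' (by omega)) (by positivity))
  have hsum := sum_le_sum hpt
  rw [sum_add_distrib, sum_const, nsmul_eq_mul, sum_ite_mem,
    inter_eq_right.2 (filter_subset _ _ : F ⊆ A), ← mul_sum] at hsum
  have hinv := sum_inv_normal hd hT F nk
    (fun a ha => mem_erase.1 (mem_filter.1 ha).1)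
    (fun a ha => ⟨(mem_filter.1 ha).2.1.ne_zero, (mem_filter.1 ha).2.2⟩)
    (fun a ha a' ha' he => by
      obtain ⟨-, -, -, μ, hμ⟩ := (mem_filter.1 ha).2.1
      obtain ⟨-, -, -, μ', hμ'⟩ := (mem_filter.1 ha').2.1
      rw [he] at hμ'
      have hμ0 : μ ≠ 0 := fun h =>
        (mem_erase.1 (mem_filter.1 ha).1).1 (hr0 a (funext fun i => by simp [hμ i, h]))
      exact ⟨μ' / μ, hrpar a a' _ fun i => by rw [hμ i, hμ' i]; field_simp⟩)
  have hC1nn : 0 ≤ C1 := by positivity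
  have hA' : (A.card : ℝ) ≤ 3 ^ d * (T : ℝ) ^ d :=
    (Nat.cast_le.2 (card_le_card (erase_subset _ _))).trans hbox
  have e1 : (T : ℝ) ^ (2 * d - 2) = (T : ℝ) ^ d * (T : ℝ) ^ (d - 2) := by
    rw [← pow_add]; congr 1; omega
  have e2 : (T : ℝ) ^ (2 * d - 2) = (T : ℝ) ^ (d - 1) * (T : ℝ) ^ (d - 1) := by
    rw [← pow_add]; congr 1; omega
  have hX : (A.card : ℝ) * (C1 * (T : ℝ) ^ (d - 2)) ≤ C1 * 3 ^ d * (T : ℝ) ^ (2 * d - 2) := by
    rw [e1]
    calc (A.card : ℝ) * (C1 * (T : ℝ) ^ (d - 2))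
        ≤ 3 ^ d * (T : ℝ) ^ d * (C1 * (T : ℝ) ^ (d - 2)) := by gcongr
      _ = _ := by ring
  have hY : C1 * (T : ℝ) ^ (d - 1) * ∑ a ∈ F, ((ht (nk a) : ℝ))⁻¹
      ≤ C1 * (8 * d * 3 ^ d + 3 ^ d + 2 * d * 3 ^ d) * (T : ℝ) ^ (2 * d - 2) := by
    rw [e2]
    calc C1 * (T : ℝ) ^ (d - 1) * ∑ a ∈ F, ((ht (nk a) : ℝ))⁻¹
        ≤ C1 * (T : ℝ) ^ (d - 1)
            * ((8 * d * 3 ^ d + 3 ^ d + 2 * d * 3 ^ d) * (T : ℝ) ^ (d - 1)) := by gcongr
      _ = _ := by ring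
  unfold countConst
  rw [← hC1]
  linarith

end Vale.Agent.P054
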