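import Mathlib

/-!
# Integer points of a box on a hyperplane

Bounds for the number of integer vectors in a box lying in a hyperplane with
primitive normal `k`, and in a rational subspace.
-/

namespace Vale.Agent.P054

open Finset

/-- The integer box `[-T,T]^d`. -/
noncomputable def box (d T : ℕ) : Finset (Fin d → ℤ) :=
  Fintype.piFinset fun _ => Finset.Icc (-(T : ℤ)) T

theorem mem_box {d T : ℕ} {z : Fin d → ℤ} : z ∈ box d T ↔ ∀ i, |z i| ≤ (T : ℤ) := by
  simp [box, abs_le]

theorem card_box (d T : ℕ) : (box d T).card = (2 * T + 1) ^ d := by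
  simp only [box, Fintype.card_piFinset, Int.card_Icc, Finset.prod_const, Finset.card_univ,
    Fintype.card_fin]
  congr 1
  omega

theorem card_residue {d K : ℕ} [NeZero K] (k c : Fin d → ℤ) (hc : ∑ i, c i * k i = 1) (j : ℕ) :
    min K (j + 1) ≤ ((box d j).image fun z => ((∑ i, k i * z i : ℤ) : ZMod K)).card := by
  induction j with
  | zero =>
    have : 1 ≤ ((box d 0).image fun z => ((∑ i, k i * z i : ℤ) : ZMod K)).card := by
      rw [Nat.one_le_iff_ne_zero, ← Nat.pos_iff_ne_zero, Finset.card_pos]
      exact ⟨_, mem_image_of_mem _ (mem_box.2 (fun i => by simp : ∀ i, |(0 : Fin d → ℤ) i| ≤ 0))⟩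
    omega
  | succ j ih =>
    set X := (box d j).image fun z => ((∑ i, k i * z i : ℤ) : ZMod K) with hX
    set Y := (box d (j + 1)).image fun z => ((∑ i, k i * z i : ℤ) : ZMod K) with hY
    have hXY : X ⊆ Y := image_subset_image fun z hz => mem_box.2 fun i => by
      have := mem_box.1 hz i; push_cast; linarith
    rcases (card_le_card hXY).lt_or_eq with h | h
    · omega
    have hEq : X = Y := eq_of_subset_of_card_le hXY h.ge
    let H : AddSubmonoid (ZMod K) :=
      { carrier := {y | ∀ x ∈ X, x + y ∈ X}
        add_mem' := fun ha hb x hx => by rw [← add_assoc]; exact hb _ (ha x hx)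
        zero_mem' := fun x hx => by simpa using hx }
    have hgen : ∀ i, (k i : ZMod K) ∈ H := by
      intro i x hx
      show x + (k i : ZMod K) ∈ X
      rw [hEq]
      obtain ⟨z, hz, rfl⟩ := mem_image.1 hx
      refine mem_image.2 ⟨z + Pi.single i 1, mem_box.2 fun l => ?_, ?_⟩
      · have := abs_le.1 (mem_box.1 hz l)
        rcases eq_or_ne l i with rfl | hl
        · simp [abs_le]; omega
        · simp [abs_le, hl]; omega
      · simp only [Pi.add_apply, mul_add, sum_add_distrib]
        simp [Pi.single_apply]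
    have hone : (1 : ZMod K) ∈ H := by
      have h1 : ((∑ i, c i * k i : ℤ) : ZMod K) = 1 := by rw [hc]; simp
      rw [← h1]
      push_cast
      refine sum_mem fun i _ => ?_
      have : (c i : ZMod K) * (k i : ZMod K) = (c i : ZMod K).val • (k i : ZMod K) := by
        rw [nsmul_eq_mul, ZMod.natCast_zmod_val]
      rw [this]
      exact nsmul_mem (hgen i) _
    have huniv : X = univ := by
      refine eq_univ_of_forall fun y => ?_
      have h0 : (0 : ZMod K) ∈ X := mem_image.2 ⟨0, mem_box.2 (by simp), by simp⟩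
      have hy : y ∈ H := by
        have : y = y.val • (1 : ZMod K) := by simp
        rw [this]; exact nsmul_mem hone _
      simpa using hy 0 h0
    have : Y.card = K := by rw [← hEq, huniv, card_univ, ZMod.card]
    omega

/-- A box meets a hyperplane with primitive normal in few points. -/
theorem slice_card_mul {d K : ℕ} [NeZero K] (k c : Fin d → ℤ) (hc : ∑ i, c i * k i = 1)
    (i₀ : Fin d) (hK : |k i₀| = (K : ℤ)) (T : ℕ) (B : Finset (Fin d → ℤ))
    (hB : B ⊆ box d T) (hB0 : ∀ b ∈ B, ∑ i, k i * b i = 0) :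
    B.card * (min K (T + 1) * (2 * T + 1)) ≤ (4 * T + 1) ^ d := by
  classical
  set X := (box d T).image fun z => ((∑ i, k i * z i : ℤ) : ZMod K) with hX
  have hrep : ∀ x ∈ X, ∃ z, z ∈ box d T ∧ ((∑ i, k i * z i : ℤ) : ZMod K) = x := by
    intro x hx; simpa using mem_image.1 hx
  choose! z hz hzx using hrep
  have hk0 : (k i₀ : ZMod K) = 0 := by
    rw [ZMod.intCast_zmod_eq_zero_iff_dvd]
    rcases (abs_eq (Int.natCast_nonneg K)).1 hK with h | h <;> rw [h] <;> simp
  let f : ((Fin d → ℤ) × ZMod K × ℤ) → (Fin d → ℤ) := fun p =>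
    p.1 + Function.update (z p.2.1) i₀ p.2.2
  have hsum : ∀ (x : ZMod K) (j : ℤ),
      ∑ i, k i * Function.update (z x) i₀ j i = (∑ i, k i * z x i) + k i₀ * (j - z x i₀) := by
    intro x j
    rw [← add_sum_erase _ _ (mem_univ i₀), ← add_sum_erase _ _ (mem_univ i₀)]
    rw [Function.update_self]
    rw [sum_congr rfl fun i hi => by rw [Function.update_of_ne (ne_of_mem_erase hi)]]
    ring
  have hinj : Set.InjOn f ↑(B ×ˢ X ×ˢ Finset.Icc (-(T : ℤ)) T) := by
    rintro ⟨b, x, j⟩ hp ⟨b', x', j'⟩ hq heq
    simp only [coe_product, Set.mem_prod, mem_coe] at hp hq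
    simp only [f] at heq
    have e := congrArg (fun v : Fin d → ℤ => ∑ i, k i * v i) heq
    simp only [Pi.add_apply, mul_add, sum_add_distrib, hB0 b hp.1, hB0 b' hq.1, zero_add,
      hsum] at e
    have ex : x = x' := by
      have := congrArg (fun v : ℤ => (v : ZMod K)) e
      simpa [hzx x hp.2.1, hzx x' hq.2.1, hk0] using this
    subst ex
    have ej : j = j' := by
      have hkne : k i₀ ≠ 0 := by
        intro h; rw [h, abs_zero] at hK; exact NeZero.ne K (by exact_mod_cast hK.symm)
      have : k i₀ * j = k i₀ * j' := by linarith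
      exact mul_left_cancel₀ hkne this
    subst ej
    simpa using heq
  have hmaps : Set.MapsTo f ↑(B ×ˢ X ×ˢ Finset.Icc (-(T : ℤ)) T) ↑(box d (2 * T)) := by
    rintro ⟨b, x, j⟩ hp
    simp only [coe_product, Set.mem_prod, mem_coe, mem_Icc] at hp
    refine mem_box.2 fun i => ?_
    have h1 := abs_le.1 (mem_box.1 (hB hp.1) i)
    rw [abs_le]
    simp only [f, Pi.add_apply]
    rcases eq_or_ne i i₀ with rfl | hi
    · rw [Function.update_self]; push_cast; omega
    · have h2 := abs_le.1 (mem_box.1 (hz x hp.2.1) i)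
      rw [Function.update_of_ne hi]; push_cast; omega
  have hle := card_le_card_of_injOn f hmaps hinj
  rw [card_product, card_product, card_box, Int.card_Icc] at hle
  have hXc := card_residue (K := K) k c hc T
  rw [← hX] at hXc
  have hT : ((T : ℤ) + 1 - -(T : ℤ)).toNat = 2 * T + 1 := by omega
  rw [hT, show 2 * (2 * T) = 4 * T by ring] at hle
  exact le_trans (Nat.mul_le_mul_left _ (Nat.mul_le_mul_right _ hXc)) hle

/-- A rational subspace of dimension `m` meets a box in `O(T^m)` points. -/
theorem subspace_card {d : ℕ} : ∀ (m : ℕ) (W : Submodule ℚ (Fin d → ℚ)) (T : ℕ)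
    (B : Finset (Fin d → ℤ)), Module.finrank ℚ W ≤ m → B ⊆ box d T →
    (∀ b ∈ B, (fun i => (b i : ℚ)) ∈ W) → B.card ≤ (2 ^ m * (2 * T + 1)) ^ m := by
  classical
  intro m
  induction m with
  | zero =>
    intro W T B hW _ hBW
    have hbot : W = ⊥ := Submodule.finrank_eq_zero.1 (Nat.le_zero.1 hW)
    have : B ⊆ {0} := fun b hb => by
      have h := hBW b hb
      rw [hbot, Submodule.mem_bot] at h
      rw [mem_singleton]; funext i
      have := congrFun h i
      simpa using this
    simpa using card_le_card this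
  | succ m ih =>
    intro W T B hW hB hBW
    by_cases hbot : W = ⊥
    · have : B ⊆ {0} := fun b hb => by
        have h := hBW b hb
        rw [hbot, Submodule.mem_bot] at h
        rw [mem_singleton]; funext i
        have := congrFun h i
        simpa using this
      refine le_trans (by simpa using card_le_card this) (Nat.one_le_pow _ _ (by positivity))
    obtain ⟨w, hw, hw0⟩ := (Submodule.ne_bot_iff W).1 hbot
    obtain ⟨i, hi⟩ := Function.ne_iff.1 hw0
    set W' := W ⊓ LinearMap.ker (LinearMap.proj (R := ℚ) (φ := fun _ : Fin d => ℚ) i) with hW'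
    have hlt : W' < W := by
      refine lt_of_le_of_ne inf_le_left fun h => ?_
      have : w ∈ W' := by rw [h]; exact hw
      exact hi (by simpa [hW'] using this.2)
    have hW'm : Module.finrank ℚ W' ≤ m := by
      have := Submodule.finrank_lt_finrank_of_lt hlt
      omega
    have hfib : ∀ a ∈ B.image (fun b => b i),
        (B.filter fun b => b i = a).card ≤ (2 ^ m * (4 * T + 1)) ^ m := by
      intro a ha
      obtain ⟨b₀, hb₀, rfl⟩ := mem_image.1 ha
      have hinj : Function.Injective fun b : Fin d → ℤ => b - b₀ := sub_left_injective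
      rw [← card_image_of_injective _ hinj, show 4 * T = 2 * (2 * T) by ring]
      refine ih W' (2 * T) _ hW'm ?_ ?_
      · intro x hx
        obtain ⟨b, hb, rfl⟩ := mem_image.1 hx
        refine mem_box.2 fun l => ?_
        have h1 := abs_le.1 (mem_box.1 (hB (mem_filter.1 hb).1) l)
        have h2 := abs_le.1 (mem_box.1 (hB hb₀) l)
        rw [abs_le, Pi.sub_apply]; push_cast; omega
      · intro x hx
        obtain ⟨b, hb, rfl⟩ := mem_image.1 hx
        obtain ⟨hb, hbi⟩ := mem_filter.1 hb
        have e : (fun l => (((b - b₀) l : ℤ) : ℚ))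
            = (fun l => (b l : ℚ)) - fun l => (b₀ l : ℚ) := by funext l; simp
        refine ⟨?_, ?_⟩
        · show _ ∈ W
          rw [e]; exact sub_mem (hBW b hb) (hBW b₀ hb₀)
        · show (((b - b₀) i : ℤ) : ℚ) = 0
          simp [hbi]
    have hcard := card_le_mul_card_image B _ hfib
    have hvals : (B.image fun b => b i).card ≤ 2 * T + 1 := by
      refine le_trans (card_le_card (t := Finset.Icc (-(T : ℤ)) T) ?_) (by simp; omega)
      intro a ha
      obtain ⟨b, hb, rfl⟩ := mem_image.1 ha
      exact mem_Icc.2 (abs_le.1 (mem_box.1 (hB hb) i))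
    calc B.card ≤ (2 ^ m * (4 * T + 1)) ^ m * (2 * T + 1) :=
          le_trans hcard (Nat.mul_le_mul_left _ hvals)
      _ ≤ (2 ^ (m + 1) * (2 * T + 1)) ^ m * (2 ^ (m + 1) * (2 * T + 1)) := by
          refine Nat.mul_le_mul (Nat.pow_le_pow_left ?_ m) (Nat.le_mul_of_pos_left _ (by positivity))
          rw [pow_succ, mul_assoc]
          exact Nat.mul_le_mul_left _ (by omega)
      _ = _ := (pow_succ _ _).symm

end Vale.Agent.P054
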