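import Mathlib

/-!
# P054: four-term signed sums of squared distances

For every finite `P` in a space of dimension at most `d`, with `t ^ d ≤ |P|`, the
set `2S - 2S` (`S` the squared distances of `P`) has `≫ t ^ 2` elements.
-/

namespace Vale.Agent.P054.Squeeze

open Finset Module
open scoped RealInnerProductSpace Pointwise

variable {E : Type*} [NormedAddCommGroup E] [InnerProductSpace ℝ E]

/-- squared distances, zero included -/
noncomputable def sq (P : Finset E) : Finset ℝ :=
  (P ×ˢ P).image fun q => dist q.1 q.2 ^ 2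

/-- the signed four-fold sumset -/
noncomputable def four (P : Finset E) : Finset ℝ := 2 • sq P - 2 • sq P

theorem four_mono {P Q : Finset E} (h : Q ⊆ P) : (four Q).card ≤ (four P).card := by
  have h1 : sq Q ⊆ sq P := image_subset_image (product_subset_product h h)
  exact card_le_card (Finset.sub_subset_sub (nsmul_subset_nsmul_left h1) (nsmul_subset_nsmul_left h1))

/-- Spanner: few members of `X` control every member uniformly. -/
theorem spanner : ∀ k : ℕ, ∃ B : ℝ, 0 < B ∧ ∀ U : Submodule ℝ E, ∀ [FiniteDimensional ℝ U],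
    finrank ℝ U ≤ k → ∀ X : Finset E, ↑X ⊆ (U : Set E) →
    ∃ s : Finset E, s ⊆ X ∧ s.card ≤ k ∧ ∀ x ∈ X, ∀ w : E,
      |⟪w, x⟫| ≤ B * ∑ v ∈ s, |⟪w, v⟫| := by
  classical
  intro k
  induction k with
  | zero =>
    refine ⟨1, one_pos, fun U _ hU X hX => ?_⟩
    refine ⟨∅, empty_subset _, le_rfl, fun x hx w => ?_⟩
    have hb : U = ⊥ := Submodule.finrank_eq_zero.1 (Nat.le_zero.1 hU)
    have : x = 0 := by simpa [hb] using hX hx
    simp [this]
  | succ k ih =>
    obtain ⟨B, hB, ih⟩ := ih
    refine ⟨B * (k + 1) + 1, by positivity, fun U _ hU X hX => ?_⟩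
    by_cases hne : ∀ x ∈ X, x = 0
    · exact ⟨∅, empty_subset _, Nat.zero_le _, fun x hx w => by simp [hne x hx]⟩
    push Not at hne
    obtain ⟨x0, hx0, hx0n⟩ := hne
    obtain ⟨v, hv, hmax⟩ := exists_max_image X (fun x => ‖x‖) ⟨x0, hx0⟩
    have hvn : 0 < ‖v‖ := lt_of_lt_of_le (norm_pos_iff.2 hx0n) (hmax _ hx0)
    let co : E → ℝ := fun x => ⟪v, x⟫ / ‖v‖ ^ 2
    let p : E → E := fun x => x - co x • v
    have hco : ∀ x ∈ X, |co x| ≤ 1 := by
      intro x hx
      simp only [co, abs_div, abs_pow, abs_norm]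
      rw [div_le_one (by positivity)]
      calc |⟪v, x⟫| ≤ ‖v‖ * ‖x‖ := abs_real_inner_le_norm _ _
        _ ≤ ‖v‖ * ‖v‖ := by have := hmax x hx; gcongr
        _ = ‖v‖ ^ 2 := by ring
    let U' : Submodule ℝ E := U ⊓ (innerₛₗ ℝ v).ker
    have hlt : U' < U := by
      refine lt_of_le_of_ne inf_le_left fun h => ?_
      have : v ∈ (innerₛₗ ℝ v).ker := (h.symm ▸ hX hv : v ∈ U').2
      simp at this
      exact hvn.ne' (by simp [this])
    have hfin : FiniteDimensional ℝ U' := Submodule.finiteDimensional_of_le inf_le_left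
    have hU' : finrank ℝ U' ≤ k := by
      have := Submodule.finrank_lt_finrank_of_lt hlt; omega
    have hX' : ↑(X.image p) ⊆ (U' : Set E) := by
      intro y hy
      obtain ⟨x, hx, rfl⟩ := mem_image.1 hy
      refine ⟨U.sub_mem (hX hx) (U.smul_mem _ (hX hv)), ?_⟩
      simp only [p, co, SetLike.mem_coe, LinearMap.mem_ker, innerₛₗ_apply_apply, inner_sub_right,
        inner_smul_right, real_inner_self_eq_norm_sq]
      field_simp
      ring
    obtain ⟨s', hs', hcard, hb⟩ := @ih U' hfin hU' (X.image p) hX'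
    choose! f hf hfp using fun y (hy : y ∈ s') => mem_image.1 (hs' hy)
    refine ⟨insert v (s'.image f), ?_, ?_, ?_⟩
    · exact insert_subset hv (image_subset_iff.2 hf)
    · exact (card_insert_le _ _).trans (Nat.succ_le_succ (card_image_le.trans hcard))
    intro x hx w
    set s := insert v (s'.image f)
    set S := ∑ u ∈ s, |⟪w, u⟫| with hS
    have hSv : |⟪w, v⟫| ≤ S :=
      single_le_sum (f := fun u => |⟪w, u⟫|) (fun _ _ => abs_nonneg _) (mem_insert_self _ _)
    -- bound the projected sum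
    have hsum : ∑ y ∈ s', |⟪w, y⟫| ≤ S + (k : ℝ) * |⟪w, v⟫| := by
      calc ∑ y ∈ s', |⟪w, y⟫| ≤ ∑ y ∈ s', (|⟪w, f y⟫| + |⟪w, v⟫|) := by
            refine sum_le_sum fun y hy => ?_
            conv_lhs => rw [← hfp y hy]
            simp only [p, inner_sub_right, inner_smul_right]
            refine (abs_sub _ _).trans (add_le_add le_rfl ?_)
            rw [abs_mul]
            exact mul_le_of_le_one_left (abs_nonneg _) (hco _ (hf y hy))
        _ ≤ S + (k : ℝ) * |⟪w, v⟫| := by
            rw [sum_add_distrib, sum_const, nsmul_eq_mul]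
            refine add_le_add ?_ (mul_le_mul_of_nonneg_right (by exact_mod_cast hcard) (abs_nonneg _))
            have hinj : Set.InjOn f ↑s' := fun a ha b hb' h => by
              rw [← hfp a ha, ← hfp b hb', h]
            rw [← sum_image (f := fun u => |⟪w, u⟫|) hinj]
            exact sum_le_sum_of_subset_of_nonneg (subset_insert _ _) (fun _ _ _ => abs_nonneg _)
    have h1 : |⟪w, p x⟫| ≤ B * ((k + 1 : ℝ) * S) := by
      refine (hb _ (mem_image_of_mem _ hx) w).trans ?_
      gcongr
      nlinarith [mul_le_mul_of_nonneg_left hSv (Nat.cast_nonneg (α := ℝ) k)]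
    have hx' : |⟪w, x⟫| ≤ |⟪w, p x⟫| + |⟪w, v⟫| := by
      have : ⟪w, x⟫ = ⟪w, p x⟫ + co x * ⟪w, v⟫ := by simp [p, inner_sub_right, inner_smul_right]
      rw [this]
      refine (abs_add_le _ _).trans (add_le_add le_rfl ?_)
      rw [abs_mul]
      exact mul_le_of_le_one_left (abs_nonneg _) (hco _ hx)
    nlinarith

/-- The core bound. -/
theorem core : ∀ d : ℕ, ∃ G : ℕ, 0 < G ∧ ∀ P : Finset E, 2 ≤ P.card →
    ∀ [FiniteDimensional ℝ (vectorSpan ℝ (↑P : Set E))],
    finrank ℝ (vectorSpan ℝ (↑P : Set E)) ≤ d →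
    ∀ t : ℕ, t ^ d ≤ P.card → t ^ 2 ≤ G * (four P).card := by
  classical
  intro d
  induction d with
  | zero =>
    refine ⟨1, one_pos, fun P hn _ hd t ht => ?_⟩
    obtain ⟨a, ha, b, hb, hab⟩ := one_lt_card.1 (show 1 < P.card by omega)
    have h0 := Submodule.finrank_eq_zero.1 (Nat.le_zero.1 hd)
    have := vsub_mem_vectorSpan ℝ (s := (↑P : Set E)) ha hb
    rw [h0, Submodule.mem_bot, vsub_eq_sub, sub_eq_zero] at this
    exact absurd this hab
  | succ d ih =>
    obtain ⟨G0, hG0, ih⟩ := ih
    obtain ⟨B, hB, hspan⟩ := spanner (E := E) (d + 1)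
    set G : ℕ := ⌈B * (d + 1)⌉₊ + 2 with hG
    refine ⟨max G0 G, by omega, fun P hn _ hd t ht => ?_⟩
    rcases Nat.eq_zero_or_pos t with rfl | htp
    · simp
    set U := vectorSpan ℝ (↑P : Set E) with hU
    set X := (P ×ˢ P).image (fun q => q.1 - q.2) with hX
    have hXU : ↑X ⊆ (U : Set E) := by
      intro x hx
      obtain ⟨q, hq, rfl⟩ := mem_image.1 hx
      rw [mem_product] at hq
      exact vsub_mem_vectorSpan ℝ (s := (↑P : Set E)) hq.1 hq.2
    by_cases hfew : ∃ w ∈ X, w ≠ 0 ∧ (P.image fun p => ⟪w, p⟫).card < t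
    · -- a rich hyperplane section
      obtain ⟨w, hw, hw0, hlt⟩ := hfew
      have hlt' : (P.image fun p => ⟪w, p⟫).card * t ^ d < P.card :=
        lt_of_lt_of_le (by rw [pow_succ']; exact Nat.mul_lt_mul_of_pos_right hlt (by positivity)) ht
      obtain ⟨y, hy, hfib⟩ := exists_lt_card_fiber_of_mul_lt_card_of_maps_to
        (fun p hp => mem_image_of_mem (fun p => ⟪w, p⟫) hp) hlt'
      set Q := P.filter fun p => ⟪w, p⟫ = y with hQ
      have hQ2 : 2 ≤ Q.card := by have : 1 ≤ t ^ d := Nat.one_le_pow _ _ htp; omega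
      have hle : vectorSpan ℝ (↑Q : Set E) ≤ U ⊓ (innerₛₗ ℝ w).ker := by
        refine le_inf (vectorSpan_mono ℝ (by exact_mod_cast filter_subset _ _)) ?_
        refine Submodule.span_le.2 ?_
        rintro _ ⟨a, ha, b, hb, rfl⟩
        simp only [hQ, coe_filter, Set.mem_setOf_eq] at ha hb
        simp [inner_sub_right, ha.2, hb.2]
      have hlt2 : U ⊓ (innerₛₗ ℝ w).ker < U := by
        refine lt_of_le_of_ne inf_le_left fun h => ?_
        have : w ∈ (innerₛₗ ℝ w).ker := (h.symm ▸ hXU hw : w ∈ U ⊓ (innerₛₗ ℝ w).ker).2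
        simp at this
        exact hw0 this
      have hfin : FiniteDimensional ℝ (vectorSpan ℝ (↑Q : Set E)) :=
        Submodule.finiteDimensional_of_le (hle.trans inf_le_left)
      have hfin2 : FiniteDimensional ℝ ↥(U ⊓ (innerₛₗ ℝ w).ker) :=
        Submodule.finiteDimensional_of_le inf_le_left
      have hdim : finrank ℝ (vectorSpan ℝ (↑Q : Set E)) ≤ d := by
        have h1 := Submodule.finrank_mono hle
        have h2 := Submodule.finrank_lt_finrank_of_lt hlt2
        omega
      have h := @ih Q hQ2 hfin hdim t (le_of_lt hfib)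
      exact h.trans (Nat.mul_le_mul (le_max_left _ _) (four_mono (filter_subset _ _)))
    · -- squeezing
      push Not at hfew
      obtain ⟨s, hsX, hsc, hs⟩ := hspan U hd X hXU
      let N : E → ℝ := fun x => ∑ v ∈ s, |⟪x, v⟫|
      obtain ⟨q, hq, hmin⟩ := exists_min_image P.offDiag (fun q => N (q.1 - q.2))
        (by obtain ⟨a, ha, b, hb, hab⟩ := one_lt_card.1 (show 1 < P.card by omega)
            exact ⟨(a, b), mem_offDiag.2 ⟨ha, hb, hab⟩⟩)
      obtain ⟨hq1, hq2, hqne⟩ := mem_offDiag.1 hq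
      set ρ := N (q.1 - q.2) with hρ
      have hXm : ∀ a ∈ P, ∀ b ∈ P, a - b ∈ X := fun a ha b hb =>
        mem_image.2 ⟨(a, b), mem_product.2 ⟨ha, hb⟩, rfl⟩
      have hρ0 : 0 < ρ := by
        refine lt_of_le_of_ne (sum_nonneg fun _ _ => abs_nonneg _) fun h => ?_
        have h' := hs _ (hXm _ hq1 _ hq2) (q.1 - q.2)
        have : ∑ v ∈ s, |⟪q.1 - q.2, v⟫| = 0 := h.symm
        rw [this, mul_zero, abs_nonpos_iff, inner_self_eq_zero, sub_eq_zero] at h'
        exact hqne h'
      set k : ℝ := ((d + 1 : ℕ) : ℝ) with hk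
      have hk0 : 0 < k := by positivity
      let c : E → E → ℤ := fun v p => ⌊⟪p, v⟫ * k / ρ⌋
      have hcell : Set.InjOn (fun p => fun v : s => c v.1 p) ↑P := by
        intro a ha b hb h
        by_contra hab
        have h1 : ρ ≤ N (a - b) := hmin (a, b) (mem_offDiag.2 ⟨ha, hb, hab⟩)
        have h2 : ∀ v ∈ s, |⟪a - b, v⟫| * k < ρ := by
          intro v hv
          have he : c v a = c v b := congrFun h ⟨v, hv⟩
          have := Int.abs_sub_lt_one_of_floor_eq_floor he
          rw [← sub_div, ← sub_mul, ← inner_sub_left, abs_div, abs_mul, abs_of_pos hk0,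
            abs_of_pos hρ0, div_lt_one hρ0] at this
          exact this
        rcases s.eq_empty_or_nonempty with he | hne
        · rw [show N (a - b) = 0 by simp [N, he]] at h1; linarith
        · have h3 : N (a - b) * k < s.card * ρ := by
            simp only [N, sum_mul]
            exact (sum_lt_sum_of_nonempty hne h2).trans_eq (by simp)
          have h4 : (s.card : ℝ) * ρ ≤ k * ρ := by
            gcongr; rw [hk]; exact_mod_cast hsc
          nlinarith
      have hocc : ∃ v ∈ s, t ≤ (P.image (c v)).card := by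
        by_contra hno
        push Not at hno
        have h1 : P.card ≤ (Fintype.piFinset fun v : s => P.image (c v.1)).card :=
          card_le_card_of_injOn _ (fun p hp => Fintype.mem_piFinset.2 fun v => mem_image_of_mem _ hp) hcell
        rw [Fintype.card_piFinset] at h1
        rcases s.eq_empty_or_nonempty with he | hne
        · subst he; simp at h1; omega
        · have h2 : ∏ v : s, (P.image (c v.1)).card < ∏ _v : s, t := by
            refine prod_lt_prod_of_nonempty (fun v _ => ?_) (fun v _ => hno v.1 v.2) ?_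
            · exact card_pos.2 ((card_pos.1 (show 0 < P.card by omega)).image _)
            · exact univ_nonempty_iff.2 hne.to_subtype
          rw [prod_const, card_univ, Fintype.card_coe] at h2
          have h3 : t ^ s.card ≤ t ^ (d + 1) := Nat.pow_le_pow_right htp hsc
          omega
      obtain ⟨v, hv, hOv⟩ := hocc
      obtain ⟨⟨b', a'⟩, hab', hveq⟩ := mem_image.1 (hsX hv)
      rw [mem_product] at hab'
      have hveq' : b' - a' = v := hveq
      -- a residue class of coarse cells
      have hGp : 0 < G := by omega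
      obtain ⟨z, -, hz⟩ := exists_max_image (range G)
        (fun z => ((P.image (c v)).filter fun i => i % (G : ℤ) = (z : ℤ)).card) ⟨0, by simpa using hGp⟩
      set C := (P.image (c v)).filter fun i => i % (G : ℤ) = (z : ℤ) with hC
      have hCG : t ≤ G * C.card := by
        refine hOv.trans ?_
        have : P.image (c v) ⊆ (range G).biUnion
            (fun z => (P.image (c v)).filter fun i => i % (G : ℤ) = (z : ℤ)) := by
          intro i hi
          have hn0 : 0 ≤ i % (G : ℤ) := Int.emod_nonneg _ (by omega)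
          have hn1 : i % (G : ℤ) < G := Int.emod_lt_of_pos _ (by omega)
          exact mem_biUnion.2 ⟨(i % (G : ℤ)).toNat, mem_range.2 (by omega),
            mem_filter.2 ⟨hi, by omega⟩⟩
        refine (card_le_card this).trans (card_biUnion_le.trans ?_)
        refine (sum_le_card_nsmul _ _ _ hz).trans ?_
        simp [hC]
      choose! rep hrep hrepc using fun i (hi : i ∈ C) => mem_image.1 (mem_filter.1 hi).1
      set w := q.1 - q.2 with hw
      set W := P.image (fun p => ⟪w, p⟫) with hW
      have hWt : t ≤ W.card := hfew w (hXm _ hq1 _ hq2) (sub_ne_zero.2 hqne)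
      let f : ℤ × ℝ → ℝ := fun x =>
        2 * (⟪rep x.1, v⟫ + x.2) + (‖a'‖ ^ 2 - ‖b'‖ ^ 2 + ‖q.2‖ ^ 2 - ‖q.1‖ ^ 2)
      have hmaps : ∀ x ∈ C ×ˢ W, f x ∈ four P := by
        rintro ⟨i, r⟩ hx
        rw [mem_product] at hx
        obtain ⟨hi, hr⟩ := hx
        obtain ⟨p, hp, rfl⟩ := mem_image.1 hr
        have hm : ∀ x ∈ P, ∀ y ∈ P, dist x y ^ 2 ∈ sq P := fun x hx y hy =>
          mem_image.2 ⟨(x, y), mem_product.2 ⟨hx, hy⟩, rfl⟩
        have heq : f (i, ⟪w, p⟫) = (dist (rep i) a' ^ 2 + dist p q.2 ^ 2)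
            - (dist (rep i) b' ^ 2 + dist p q.1 ^ 2) := by
          simp only [f, dist_eq_norm, norm_sub_sq_real, hw, ← hveq', inner_sub_left, inner_sub_right,
            real_inner_comm p q.1, real_inner_comm p q.2]
          ring
        rw [heq, four, two_nsmul]
        exact sub_mem_sub (add_mem_add (hm _ (hrep i hi) _ hab'.2) (hm _ hp _ hq2))
          (add_mem_add (hm _ (hrep i hi) _ hab'.1) (hm _ hp _ hq1))
      have hinj : Set.InjOn f ↑(C ×ˢ W) := by
        rintro ⟨i, r⟩ hx ⟨j, r'⟩ hy h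
        simp only [coe_product, Set.mem_prod, mem_coe] at hx hy
        obtain ⟨p, hp, rfl⟩ := mem_image.1 hx.2
        obtain ⟨p', hp', rfl⟩ := mem_image.1 hy.2
        have h1 : ⟪rep i, v⟫ - ⟪rep j, v⟫ = ⟪w, p' - p⟫ := by
          simp only [f] at h; rw [inner_sub_right]; linarith
        suffices hij : i = j by
          subst hij
          simp only [f] at h
          exact Prod.ext rfl (by linarith)
        by_contra hne
        have hdvd : (G : ℤ) ∣ i - j :=
          Int.dvd_of_emod_eq_zero (Int.emod_eq_emod_iff_emod_sub_eq_zero.1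
            ((mem_filter.1 hx.1).2.trans (mem_filter.1 hy.1).2.symm))
        have hbig : (G : ℤ) ≤ |i - j| := Int.le_of_dvd (by positivity) ((dvd_abs _ _).2 hdvd)
          |>.trans_eq rfl
        have h2 : |⟪w, p' - p⟫| ≤ B * ρ := hs _ (hXm _ hp' _ hp) w
        have h3 : ((|i - j| : ℤ) : ℝ) < |⟪rep i, v⟫ * k / ρ - ⟪rep j, v⟫ * k / ρ| + 1 := by
          have ei : ((⌊⟪rep i, v⟫ * k / ρ⌋ : ℤ) : ℝ) = i := by exact_mod_cast hrepc i hx.1
          have ej : ((⌊⟪rep j, v⟫ * k / ρ⌋ : ℤ) : ℝ) = j := by exact_mod_cast hrepc j hy.1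
          simp only [Int.cast_abs, Int.cast_sub]
          have a1 := Int.floor_le (⟪rep i, v⟫ * k / ρ)
          have a2 := Int.lt_floor_add_one (⟪rep i, v⟫ * k / ρ)
          have a3 := Int.floor_le (⟪rep j, v⟫ * k / ρ)
          have a4 := Int.lt_floor_add_one (⟪rep j, v⟫ * k / ρ)
          rw [abs_lt]
          constructor <;>
            linarith [le_abs_self (⟪rep i, v⟫ * k / ρ - ⟪rep j, v⟫ * k / ρ),
              neg_abs_le (⟪rep i, v⟫ * k / ρ - ⟪rep j, v⟫ * k / ρ)]
        rw [← sub_div, ← sub_mul, h1, abs_div, abs_mul, abs_of_pos hk0, abs_of_pos hρ0] at h3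
        have h4 : |⟪w, p' - p⟫| * k / ρ ≤ B * k := by
          rw [div_le_iff₀ hρ0]; nlinarith
        have h5 : (G : ℝ) ≤ ((|i - j| : ℤ) : ℝ) := by exact_mod_cast hbig
        have h6 : B * k + 2 ≤ (G : ℝ) := by
          rw [hG, hk]; push_cast; have := Nat.le_ceil (B * ((d : ℝ) + 1)); linarith
        linarith
      have hcard := card_le_card_of_injOn f hmaps hinj
      rw [card_product] at hcard
      calc t ^ 2 = t * t := pow_two t
        _ ≤ (G * C.card) * W.card := Nat.mul_le_mul hCG hWt
        _ = G * (C.card * W.card) := by ring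
        _ ≤ max G0 G * (four P).card := Nat.mul_le_mul (le_max_right _ _) hcard

end Vale.Agent.P054.Squeeze
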